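import Vale.Agent.P183.H330M.Glue
import Vale.Agent.P183.H330D.Core
import Vale.Agent.P183.H330D.Lev

/-!
Mixed fibres: the fibres are distributive, or group intervals which lie above everything that is
below them in the quotient.
-/

namespace Vale.Agent.P183.H330M

open Vale.Agent.P183 Vale.Agent.P183.H330 Vale.Agent.P183.H330G Vale.Agent.P183.H330D

variable {L K : Type} [Lattice L] [Lattice K] {f : LatticeHom L K} {lo hi : K → L}

/-- The step over a fibre which lies above everything: all lower spaces go to the base point. -/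
theorem exists_step_top {S : ∀ t, Sp f lo t} {B : ∀ t, Subgroup (Equiv.Perm (S t).X)}
    {J : ∀ t r, (S r).X → (S t).X} (hlo : ∀ k l, k ≤ f l → lo k ≤ l) {t : K} (ω : (S t).X)
    (hJ : ∀ r, r < t → Good3 S B r J) (hb : ∀ x y, f x < t → f y = t → x ≤ y)
    (hflo : ∀ k, f (lo k) = k) :
    ∃ J' : ∀ t r, (S r).X → (S t).X, (∀ r, r ≠ t → J' r = J r) ∧
      Good3 S B t J' ∧ ∀ r, r < t → ∀ a, J' t r a = ω := by
  classical
  let new : ∀ r, (S r).X → (S t).X := fun r a => if h : r = t then h ▸ a else ω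
  have new_ne : ∀ r, r ≠ t → ∀ a, new r a = ω := fun r h a => dif_neg h
  have new_self : ∀ a, new t a = a := by
    intro a
    show (if h : t = t then h ▸ a else ω) = a
    rw [dif_pos rfl]
  let J' : ∀ t r, (S r).X → (S t).X := Function.update J t new
  have hJt : J' t = new := Function.update_self _ _ _
  have hJr : ∀ r, r ≠ t → J' r = J r := fun r h => Function.update_of_ne h _ _
  have hlt : ∀ r, r < t → ∀ a, J' t r a = ω := by
    intro r hr a
    rw [hJt]
    exact new_ne r hr.ne a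
  have hself : ∀ a, J' t t a = a := fun a => by rw [hJt]; exact new_self a
  have hdd : ∀ a l, f l = t → (S t).d a a ≤ l := by
    intro a l hl
    rw [((S t).self a a).2 rfl]
    exact hlo _ _ hl.ge
  have hcomp : ∀ q r, q ≤ r → r ≤ t → ∀ a, J' t r (J' r q a) = J' t q a := by
    intro q r hqr hrt a
    rcases eq_or_lt_of_le hrt with h | h
    · subst h
      exact hself _
    · rw [hlt r h, hlt q (hqr.trans_lt h)]
  refine ⟨J', hJr, ⟨hself, hcomp, ?_, ?_, ?_, ?_⟩, hlt⟩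
  · intro r hrt a a'
    rcases eq_or_lt_of_le hrt with h | h
    · subst h
      rw [hself, hself]
      exact (sup_eq_left.2 (hlo _ _ ((S _).fd _ _).ge)).symm
    · rw [hlt r h, hlt r h, ((S t).self ω ω).2 rfl]
      exact (sup_eq_right.2 (hb _ _ (by rw [(S r).fd]; exact h) (hflo t))).symm
  · intro r r' hr hr' a a' l hl h
    rcases eq_or_lt_of_le hr with hreq | hrlt
    · subst hreq
      have hle : r' ≤ r ⊓ r' := le_inf hr' le_rfl
      refine ⟨J' (r ⊓ r') r' a', ?_, ?_⟩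
      · rw [hcomp _ _ hle inf_le_left]; exact h
      · rw [hcomp _ _ hle inf_le_left]; exact hdd _ _ hl
    rcases eq_or_lt_of_le hr' with hreq | hrlt'
    · subst hreq
      have hle : r ≤ r ⊓ r' := le_inf le_rfl hr
      refine ⟨J' (r ⊓ r') r a, ?_, ?_⟩
      · rw [hcomp _ _ hle inf_le_right]; exact hdd _ _ hl
      · rw [hcomp _ _ hle inf_le_right]; exact h
    · obtain ⟨e⟩ := (S (r ⊓ r')).ne
      refine ⟨e, ?_, ?_⟩
      · rw [hlt r hrlt, hlt _ (inf_le_left.trans_lt hrlt)]; exact hdd _ _ hl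
      · rw [hlt r' hrlt', hlt _ (inf_le_left.trans_lt hrlt)]; exact hdd _ _ hl
  · intro r r' hr hr' x a a' l l' hl hl' h h'
    have hll : f (l ⊓ l') = t := by rw [map_inf, hl, hl', inf_idem]
    rcases eq_or_lt_of_le hr with hreq | hrlt
    · subst hreq
      exact Or.inl ⟨x, by rw [hself]; exact hdd _ _ hll⟩
    rcases eq_or_lt_of_le hr' with hreq | hrlt'
    · subst hreq
      exact Or.inr ⟨x, by rw [hself]; exact hdd _ _ hll⟩
    refine Or.inl ⟨a, ?_⟩
    refine le_inf h ?_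
    rw [hlt r hrlt]
    rwa [hlt r' hrlt'] at h'
  · intro s g _
    refine ⟨1, (B t).one_mem, fun r _ hrt a => ?_⟩
    rw [hlt r hrt, hlt r hrt]
    rfl

/-- **Mixed fibres.** -/
theorem ext_mixed_aux [Finite L] (hf : Function.Surjective f) (b0 : K) (hb0 : ∀ k, b0 ≤ k)
    (hflo : ∀ k, f (lo k) = k) (hfhi : ∀ k, f (hi k) = k)
    (hlo : ∀ l, lo (f l) ≤ l) (hhi : ∀ l, l ≤ hi (f l)) (Sg : Set K)
    (hd : ∀ t, t ∉ Sg → ∀ x y z, f x = t → f y = t → f z = t → (x ⊓ y) ⊔ z = (x ⊔ z) ⊓ (y ⊔ z))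
    (hg : ∀ t, t ∈ Sg → ∃ (G : Type) (_ : Group G) (_ : Finite G) (H : Subgroup G),
      Nonempty ({l : L // f l = t} ≃o {W : Subgroup G // H ≤ W}))
    (hb : ∀ t, t ∈ Sg → ∀ x y, f x < t → f y = t → x ≤ y)
    (hn : ∀ r, r ∈ Sg → ∀ t, r < t → ∀ x y z, f x = t → f y = t → f z = t → ¬ x ⊓ hi r ≤ y →
      ¬ y ⊓ hi r ≤ x → ¬ x ⊓ hi r ≤ z → ¬ z ⊓ hi r ≤ x → y ⊓ hi r = z ⊓ hi r)
    (hK : Representable K) : Representable L := by
  classical
  have hKfin : Finite K := Finite.of_surjective f hf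
  have hlo' : ∀ k l, k ≤ f l → lo k ≤ l := by
    intro k l h
    have h1 : f (lo k ⊓ l) = k := by rw [map_inf, hflo, inf_eq_left.2 h]
    have h3 := hlo (lo k ⊓ l)
    rw [h1] at h3
    exact h3.trans inf_le_right
  obtain ⟨F, hF⟩ := exists_rec (K := K)
    (C := fun t => Σ S : Sp f lo t, Subgroup (Equiv.Perm S.X) × S.X)
    (fun t prev St => St.2.1 ≤ isoSub St.1 ∧ (t ∈ Sg → IntOK St.1 St.2.1 St.2.2) ∧
      (t ∉ Sg → (∀ ω, IntOK St.1 St.2.1 ω) ∧ FlagOK St.1 ∧
        LevF St.1 St.2.1 (Nat.card (Σ r : {r : K // r < t}, (prev r.1 r.2).1.X)))) (by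
    intro t prev
    by_cases ht : t ∈ Sg
    · obtain ⟨G, hG, hGf, H, ⟨θ⟩⟩ := hg t ht
      obtain ⟨S0, B0, ω0, hB0, hI0, hG0⟩ := exists_bottom (f := f) hflo hfhi hlo hhi t G H θ
      exact ⟨⟨S0, B0, ω0⟩, hB0, fun _ => ⟨hI0, hG0⟩, fun h => absurd ht h⟩
    · obtain ⟨St, Bt, h1, h2, h3, h4⟩ := goodF_distrib (lo := lo) (hi := hi) (hflo t) (hfhi t)
        (fun l hl => by rw [← hl]; exact hlo l)
        (fun l hl => by rw [← hl]; exact hhi l) (hd t ht)
        (Nat.card (Σ r : {r : K // r < t}, (prev r.1 r.2).1.X))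
      obtain ⟨ω⟩ := St.ne
      exact ⟨⟨St, Bt, ω⟩, h1, fun h => absurd h ht, fun _ => ⟨h2, h3, h4⟩⟩)
  let S : ∀ t, Sp f lo t := fun t => (F t).1
  let B : ∀ t, Subgroup (Equiv.Perm (S t).X) := fun t => (F t).2.1
  let ω : ∀ t, (S t).X := fun t => (F t).2.2
  have hBI : ∀ t, B t ≤ isoSub (S t) := fun t => (hF t).1
  have hne : ∀ t, Nonempty (∀ r, (S r).X → (S t).X) := fun t => by
    have := (S t).ne
    exact ⟨fun _ _ => Classical.arbitrary _⟩
  obtain ⟨J, hJ⟩ := exists_family (C := fun t => ∀ r, (S r).X → (S t).X)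
    (fun t J => Good3 S B t J ∧ (t ∈ Sg → ∀ r, r < t → ∀ a, J t r a = ω t))
    (fun t J J' h hg => ⟨hg.1.local h, fun ht r hr a => by
      rw [← h t le_rfl]; exact hg.2 ht r hr a⟩)
    (fun t J hJ => by
      by_cases ht : t ∈ Sg
      · obtain ⟨J', h1, h2, h3⟩ := exists_step_top hlo' (ω t) (fun r hr => (hJ r hr).1) (hb t ht)
          hflo
        exact ⟨J', h1, h2, fun _ => h3⟩
      · obtain ⟨J', h1, h2⟩ := exists_step5 (hi := hi) (fun s g hg => (hBI s) hg) hlo' hflo hfhi hhi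
          (fun r hr => (hJ r hr).1) (fun r hr => by
            by_cases hrS : r ∈ Sg
            · exact tr_of_narrow hr.le hlo' hfhi hhi (hd t ht) (hn r hrS t hr) (S r)
            · exact tr_of_flag hr.le hfhi (hd t ht) ((hF r).2.2 hrS).2.1) (hd t ht)
          ((hF t).2.2 ht).2.2
        exact ⟨J', h1, h2, fun h => absurd h ht⟩)
  refine core3 (hi := hi) hf S J B (fun t => J t b0 (ω b0)) hlo hfhi hhi (fun t => (hJ t).1) hBI
    (fun r t hrt => (hJ t).1.comp _ _ (hb0 r) hrt (ω b0)) (fun s => ?_) hK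
  by_cases hs : s ∈ Sg
  · have h1 : J s b0 (ω b0) = ω s := by
      rcases eq_or_lt_of_le (hb0 s) with h | h
      · subst h
        exact (hJ b0).1.refl _
      · exact (hJ s).2 hs b0 h _
    show IntOK (S s) (B s) (J s b0 (ω b0))
    rw [h1]
    exact (hF s).2.1 hs
  · exact ((hF s).2.2 hs).1 _

end Vale.Agent.P183.H330M
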