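import Vale.Agent.P183.H330M.Core
import Vale.Agent.P183.H330D.Reduce

/-!
Extensions whose fibres are distributive or group intervals.
-/

namespace Vale.Agent.P183.H330M

open Vale.Agent.P183 Vale.Agent.P183.H330 Vale.Agent.P183.H330D

/-- The fibre of `f` over `t` is distributive. -/
def DistribOver {L K : Type} [Lattice L] [Lattice K] (f : LatticeHom L K) (t : K) : Prop :=
  ∀ x y z, f x = t → f y = t → f z = t → (x ⊓ y) ⊔ z = (x ⊔ z) ⊓ (y ⊔ z)

/-- Every element which lies under `t` in the quotient is below every element of the fibre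
over `t`. -/
def AllBelow {L K : Type} [Lattice L] [Lattice K] (f : LatticeHom L K) (t : K) : Prop :=
  ∀ x y, f x < t → f y = t → x ≤ y

/-- Narrow traces: among the elements `x ⊓ h`, where `h` is the greatest element of the fibre
over `t` and `x` runs through another fibre, each is incomparable with at most one other. -/
def NarrowTraces {L K : Type} [Lattice L] [Lattice K] (f : LatticeHom L K) (t : K) : Prop :=
  ∀ h, f h = t → (∀ l, f l = t → l ≤ h) → ∀ x y z, t < f x → f x = f y → f x = f z →
    ¬ x ⊓ h ≤ y ⊓ h → ¬ y ⊓ h ≤ x ⊓ h → ¬ x ⊓ h ≤ z ⊓ h → ¬ z ⊓ h ≤ x ⊓ h → y ⊓ h = z ⊓ h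

/-- Mixed fibres: every fibre is distributive, or it is an interval `[H, G]` in the subgroup
lattice of a finite group, lies above everything under it, and has narrow traces. -/
def MixedFibres {L K : Type} [Lattice L] [Lattice K] (f : LatticeHom L K) : Prop :=
  ∀ t, DistribOver f t ∨ (IsGroupInterval {l : L // f l = t} ∧ AllBelow f t ∧ NarrowTraces f t)

variable {L K : Type} [Lattice L] [Lattice K]

/-- **Extensions with mixed fibres.** -/
theorem ext_mixed [Finite L] (f : LatticeHom L K) (hf : Function.Surjective f)
    (hK : Representable K) (h : MixedFibres f) : Representable L := by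
  classical
  have hKf : Finite K := Finite.of_surjective f hf
  have hKn : Nonempty K := hK.nonempty
  obtain ⟨b0, hb0⟩ := exists_least (K := K)
  obtain ⟨lo, hi, hflo, hfhi, hlo, hhi⟩ := exists_lo_hi_fin f hf
  refine ext_mixed_aux (lo := lo) (hi := hi) hf b0 hb0 hflo hfhi hlo hhi
    {t | ¬ DistribOver f t} ?_ ?_ ?_ ?_ hK
  · intro t ht
    exact not_not.1 ht
  · intro t ht
    rcases h t with h1 | h1
    · exact absurd h1 ht
    · exact h1.1
  · intro t ht
    rcases h t with h1 | h1
    · exact absurd h1 ht
    · exact h1.2.1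
  · intro r hr t hrt x y z hx hy hz h1 h2 h3 h4
    rcases h r with h0 | h0
    · exact absurd h0 hr
    · refine h0.2.2 (hi r) (hfhi r) (fun l hl => by rw [← hl]; exact hhi l) x y z
        (by rw [hx]; exact hrt) (hx.trans hy.symm) (hx.trans hz.symm) ?_ ?_ ?_ ?_
      · exact fun h => h1 (h.trans inf_le_left)
      · exact fun h => h2 (h.trans inf_le_left)
      · exact fun h => h3 (h.trans inf_le_left)
      · exact fun h => h4 (h.trans inf_le_left)

end Vale.Agent.P183.H330M
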