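import Vale.Agent.P183.H330D.Glue

/-!
Gluing spaces: one step of the construction of the maps, with a condition on traces in place of the
flag property.
-/

namespace Vale.Agent.P183.H330M

open Vale.Agent.P183.H330 Vale.Agent.P183.H330G Vale.Agent.P183.H330D

variable {L K : Type} [Lattice L] [Lattice K] {f : LatticeHom L K} {lo hi : K → L}

/-- Incidences in a lower space are determined by the traces of the meet primes over `t`. -/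
def TrOK {r : K} (S : Sp f lo r) (hi : K → L) (t : K) : Prop := ∀ a b l l', f l = t → f l' = t →
  (∀ m m', MP f t m → MP f t m' → l ≤ m → l' ≤ m' → Cm S (m ⊓ hi r) (m' ⊓ hi r) a b) →
    Cm S (l ⊓ hi r) (l' ⊓ hi r) a b

/-- The flag property implies the condition on traces. -/
theorem tr_of_flag [Finite L] {t r : K} (hr : r ≤ t) (hfhi : ∀ k, f (hi k) = k)
    (hd : ∀ x y z, f x = t → f y = t → f z = t → (x ⊓ y) ⊔ z = (x ⊔ z) ⊓ (y ⊔ z))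
    {S : Sp f lo r} (hF : FlagOK S) : TrOK S hi t := by
  intro a b l l' hl hl' h
  have hlr : ∀ l, f l = t → f (l ⊓ hi r) = r := by
    intro l hl
    rw [map_inf, hl, hfhi, inf_eq_right.2 hr]
  refine hF a b (l ⊓ hi r) (l' ⊓ hi r) (hlr l hl) (hlr l' hl') ?_
  intro n n' hn hn' hln hln'
  obtain ⟨m, hm1, hm2, hm3⟩ := trf hr hfhi hd hl hn hln
  obtain ⟨m', hm1', hm2', hm3'⟩ := trf hr hfhi hd hl' hn' hln'
  obtain ⟨z, hz1, hz2⟩ := h m m' hm1 hm1' hm2 hm2'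
  exact ⟨z, hz1.trans hm3, hz2.trans hm3'⟩

/-- Narrow traces satisfy the condition on traces, for every space. -/
theorem tr_of_narrow [Finite L] {t r : K} (hr : r ≤ t) (hlo : ∀ k l, k ≤ f l → lo k ≤ l)
    (hfhi : ∀ k, f (hi k) = k) (hhi : ∀ l, l ≤ hi (f l))
    (hd : ∀ x y z, f x = t → f y = t → f z = t → (x ⊓ y) ⊔ z = (x ⊔ z) ⊓ (y ⊔ z))
    (hn : ∀ x y z, f x = t → f y = t → f z = t → ¬ x ⊓ hi r ≤ y → ¬ y ⊓ hi r ≤ x →
      ¬ x ⊓ hi r ≤ z → ¬ z ⊓ hi r ≤ x → y ⊓ hi r = z ⊓ hi r)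
    (S : Sp f lo r) : TrOK S hi t := by
  intro a b l l' hl hl' h
  have hch : ∀ x y : S.X, S.d x y ≤ hi r := by
    intro x y
    have := hhi (S.d x y)
    rwa [S.fd] at this
  -- an element of the lower fibre below all meet primes above `l` is below `l`
  have hsep : ∀ (c l : L), f c = r → f l = t → (∀ m, MP f t m → l ≤ m → c ≤ m) → c ≤ l := by
    intro c l hc hl hm
    by_contra hcl
    have h1 : f (c ⊔ l) = t := by rw [map_sup, hc, hl, sup_eq_right.2 hr]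
    obtain ⟨m, hm1, hm2, hm3⟩ := sep hd hl h1 (fun h => hcl (le_sup_left.trans h))
    exact hm3 (sup_le (hm m hm1 hm2) hm2)
  have hlot : ∀ l, f l = t → lo r ≤ l ⊓ hi r := by
    intro l hl
    exact le_inf (hlo _ _ (by rw [hl]; exact hr)) (hlo _ _ (by rw [hfhi]))
  by_cases hc : S.d a b ≤ l
  · exact ⟨b, le_inf hc (hch _ _), by rw [(S.self b b).2 rfl]; exact hlot l' hl'⟩
  by_cases hc' : S.d a b ≤ l'
  · exact ⟨a, by rw [(S.self a a).2 rfl]; exact hlot l hl, le_inf hc' (hch _ _)⟩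
  obtain ⟨m0, hm0, hlm0, hcm0⟩ : ∃ m, MP f t m ∧ l ≤ m ∧ ¬ S.d a b ≤ m := by
    by_contra hcon
    push Not at hcon
    exact hc (hsep _ l (S.fd a b) hl hcon)
  obtain ⟨m0', hm0', hlm0', hcm0'⟩ : ∃ m, MP f t m ∧ l' ≤ m ∧ ¬ S.d a b ≤ m := by
    by_contra hcon
    push Not at hcon
    exact hc' (hsep _ l' (S.fd a b) hl' hcon)
  -- two such meet primes have incomparable traces
  have hinc : ∀ m m', MP f t m → MP f t m' → l ≤ m → l' ≤ m' → ¬ S.d a b ≤ m →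
      ¬ S.d a b ≤ m' → ¬ m ⊓ hi r ≤ m' ∧ ¬ m' ⊓ hi r ≤ m := by
    intro m m' h1 h2 h3 h4 h5 h6
    obtain ⟨z, hz1, hz2⟩ := h m m' h1 h2 h3 h4
    constructor
    · intro h7
      exact h6 ((S.tri a z b).trans (sup_le (hz1.trans h7) (hz2.trans inf_le_left)))
    · intro h7
      exact h5 ((S.tri a z b).trans (sup_le (hz1.trans inf_le_left) (hz2.trans h7)))
  obtain ⟨z, hz1, hz2⟩ := h m0 m0' hm0 hm0' hlm0 hlm0'
  obtain ⟨hi1, hi2⟩ := hinc m0 m0' hm0 hm0' hlm0 hlm0' hcm0 hcm0'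
  refine ⟨z, le_inf (hsep _ l (S.fd a z) hl ?_) (hch _ _),
    le_inf (hsep _ l' (S.fd z b) hl' ?_) (hch _ _)⟩
  · intro m hm hlm
    by_cases hcm : S.d a b ≤ m
    · by_cases h1 : m0' ⊓ hi r ≤ m
      · refine (S.tri a b z).trans (sup_le hcm ?_)
        rw [S.symm]
        exact hz2.trans h1
      · by_cases h2 : m ⊓ hi r ≤ m0'
        · exact absurd ((le_inf hcm (hch _ _)).trans h2) hcm0'
        · have h3 := hn m0' m m0 hm0'.1 hm.1 hm0.1 h1 h2 hi2 hi1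
          exact absurd ((le_inf hcm (hch _ _)).trans (h3.le.trans inf_le_left)) hcm0
    · obtain ⟨h1, h2⟩ := hinc m m0' hm hm0' hlm hlm0' hcm hcm0'
      have h3 := hn m0' m0 m hm0'.1 hm0.1 hm.1 hi2 hi1 h2 h1
      exact hz1.trans (h3.le.trans inf_le_left)
  · intro m hm hlm
    by_cases hcm : S.d a b ≤ m
    · by_cases h1 : m0 ⊓ hi r ≤ m
      · refine (S.tri z a b).trans (sup_le ?_ hcm)
        rw [S.symm]
        exact hz1.trans h1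
      · by_cases h2 : m ⊓ hi r ≤ m0
        · exact absurd ((le_inf hcm (hch _ _)).trans h2) hcm0
        · have h3 := hn m0 m m0' hm0.1 hm.1 hm0'.1 h1 h2 hi1 hi2
          exact absurd ((le_inf hcm (hch _ _)).trans (h3.le.trans inf_le_left)) hcm0'
    · obtain ⟨h1, h2⟩ := hinc m0 m hm0 hm hlm0 hlm hcm0 hcm
      have h3 := hn m0 m0' m hm0.1 hm0'.1 hm.1 hi1 hi2 h1 h2
      exact hz2.trans (h3.le.trans inf_le_left)

/-- One step of the construction of the maps. -/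
theorem exists_step5 [Finite L] [Finite K] {S : ∀ t, Sp f lo t}
    {B : ∀ t, Subgroup (Equiv.Perm (S t).X)} {J : ∀ t r, (S r).X → (S t).X}
    (hB : ∀ s, ∀ g ∈ B s, ∀ a b, (S s).d (g a) (g b) = (S s).d a b)
    (hlo : ∀ k l, k ≤ f l → lo k ≤ l) (hflo : ∀ k, f (lo k) = k) (hfhi : ∀ k, f (hi k) = k)
    (hhi : ∀ l, l ≤ hi (f l)) {t : K} (hJ : ∀ r, r < t → Good3 S B r J)
    (hF : ∀ r, r < t → TrOK (S r) hi t)
    (hd : ∀ x y z, f x = t → f y = t → f z = t → (x ⊓ y) ⊔ z = (x ⊔ z) ⊓ (y ⊔ z))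
    (hU : LevF (S t) (B t) (Nat.card (Σ r : {r : K // r < t}, (S r.1).X))) :
    ∃ J' : ∀ t r, (S r).X → (S t).X, (∀ r, r ≠ t → J' r = J r) ∧ Good3 S B t J' := by
  classical
  have hlot : ∀ k l, k ≤ f l → lo k ≤ l := hlo
  let A : Type := Σ r : {r : K // r < t}, (S r.1).X
  have hAfin : Finite A := by
    have : ∀ r : {r : K // r < t}, Finite (S r.1).X := fun r => (S r.1).fin
    exact inferInstanceAs (Finite (Σ r : {r : K // r < t}, (S r.1).X))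
  let R : L → A → A → Prop := fun l x y => ∃ e : (S (x.1.1 ⊓ y.1.1)).X,
    (S x.1.1).d x.2 (J x.1.1 (x.1.1 ⊓ y.1.1) e) ≤ l ∧
      (S y.1.1).d (J y.1.1 (x.1.1 ⊓ y.1.1) e) y.2 ≤ l
  -- going down to the fibre over `r`
  have down : ∀ r, r ≤ t → ∀ (a b : (S r).X) l, f l = t → (S r).d a b ≤ l →
      (S r).d a b ≤ l ⊓ hi r ∧ f (l ⊓ hi r) = r := by
    intro r hr a b l hl h
    refine ⟨le_inf h ?_, ?_⟩
    · have := hhi ((S r).d a b)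
      rwa [(S r).fd] at this
    · rw [map_inf, hl, hfhi, inf_eq_right.2 hr]
  have hRmono : ∀ l l' x y, l ≤ l' → R l x y → R l' x y := by
    rintro l l' x y h ⟨e, h1, h2⟩
    exact ⟨e, h1.trans h, h2.trans h⟩
  -- a point of a lower space is an interpolant
  have hRof : ∀ (x y : A) (q : K) (hqx : q ≤ x.1.1) (hqy : q ≤ y.1.1) (e : (S q).X) l,
      (S x.1.1).d x.2 (J x.1.1 q e) ≤ l → (S y.1.1).d (J y.1.1 q e) y.2 ≤ l → R l x y := by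
    intro x y q hqx hqy e l h1 h2
    have hq : q ≤ x.1.1 ⊓ y.1.1 := le_inf hqx hqy
    refine ⟨J (x.1.1 ⊓ y.1.1) q e, ?_, ?_⟩
    · rw [(hJ _ x.1.2).comp _ _ hq inf_le_left]; exact h1
    · rw [(hJ _ y.1.2).comp _ _ hq inf_le_right]; exact h2
  have hRsymm : ∀ l x y, R l x y → R l y x := by
    rintro l x y ⟨e, h1, h2⟩
    refine hRof y x _ inf_le_right inf_le_left e l ?_ ?_
    · rw [(S _).symm]; exact h2
    · rw [(S _).symm]; exact h1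
  have hRinf : ∀ l l' x y, f l = t → f l' = t → R l x y → R l' x y → R (l ⊓ l') x y := by
    rintro l l' x y hl hl' ⟨e1, h1, h2⟩ ⟨e2, h3, h4⟩
    have hll : f (l ⊓ l') = t := by rw [map_inf, hl, hl', inf_idem]
    obtain ⟨ε, hε⟩ : ∃ ε : (S (x.1.1 ⊓ y.1.1)).X,
        (S x.1.1).d x.2 (J x.1.1 (x.1.1 ⊓ y.1.1) ε) ≤ l ⊓ l' := by
      obtain ⟨a1, a2⟩ := down _ x.1.2.le _ _ l hl h1
      obtain ⟨a3, a4⟩ := down _ x.1.2.le _ _ l' hl' h3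
      have hle : (l ⊓ hi x.1.1) ⊓ (l' ⊓ hi x.1.1) ≤ l ⊓ l' := inf_le_inf inf_le_left inf_le_left
      rcases (hJ _ x.1.2).gate _ _ inf_le_left inf_le_left x.2 e1 e2 _ _ a2 a4 a1 a3 with
        ⟨c, hc⟩ | ⟨c, hc⟩
      · exact ⟨c, hc.trans hle⟩
      · exact ⟨c, hc.trans hle⟩
    obtain ⟨ε', hε'⟩ : ∃ ε : (S (x.1.1 ⊓ y.1.1)).X,
        (S y.1.1).d y.2 (J y.1.1 (x.1.1 ⊓ y.1.1) ε) ≤ l ⊓ l' := by
      rw [(S _).symm] at h2 h4
      obtain ⟨a1, a2⟩ := down _ y.1.2.le _ _ l hl h2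
      obtain ⟨a3, a4⟩ := down _ y.1.2.le _ _ l' hl' h4
      have hle : (l ⊓ hi y.1.1) ⊓ (l' ⊓ hi y.1.1) ≤ l ⊓ l' := inf_le_inf inf_le_left inf_le_left
      rcases (hJ _ y.1.2).gate _ _ inf_le_right inf_le_right y.2 e1 e2 _ _ a2 a4 a1 a3 with
        ⟨c, hc⟩ | ⟨c, hc⟩
      · exact ⟨c, hc.trans hle⟩
      · exact ⟨c, hc.trans hle⟩
    have key : ∀ (e : (S (x.1.1 ⊓ y.1.1)).X) m, l ⊓ l' ≤ m →
        (S x.1.1).d x.2 (J x.1.1 (x.1.1 ⊓ y.1.1) e) ≤ m →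
        (S y.1.1).d (J y.1.1 (x.1.1 ⊓ y.1.1) e) y.2 ≤ m →
        (S (x.1.1 ⊓ y.1.1)).d ε ε' ≤ m := by
      intro e m hm h5 h6
      refine ((S _).tri ε e ε').trans (sup_le ?_ ?_)
      · have h7 := (S x.1.1).tri (J x.1.1 (x.1.1 ⊓ y.1.1) ε) x.2 (J x.1.1 (x.1.1 ⊓ y.1.1) e)
        rw [(hJ _ x.1.2).isom _ inf_le_left] at h7
        refine le_sup_left.trans (h7.trans (sup_le ?_ h5))
        rw [(S _).symm]
        exact hε.trans hm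
      · have h7 := (S y.1.1).tri (J y.1.1 (x.1.1 ⊓ y.1.1) e) y.2 (J y.1.1 (x.1.1 ⊓ y.1.1) ε')
        rw [(hJ _ y.1.2).isom _ inf_le_right] at h7
        exact le_sup_left.trans (h7.trans (sup_le h6 (hε'.trans hm)))
    have hεε : (S (x.1.1 ⊓ y.1.1)).d ε ε' ≤ l ⊓ l' :=
      le_inf (key e1 l inf_le_left h1 h2) (key e2 l' inf_le_right h3 h4)
    refine ⟨ε, hε, ?_⟩
    refine ((S y.1.1).tri _ (J y.1.1 (x.1.1 ⊓ y.1.1) ε') _).trans (sup_le ?_ ?_)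
    · rw [(hJ _ y.1.2).isom _ inf_le_right]
      exact sup_le hεε (hlo _ _ (by rw [hll]; exact y.1.2.le))
    · rw [(S _).symm]; exact hε'
  have hRtrans : ∀ l x y z, f l = t → R l x y → R l y z → R l x z := by
    rintro l x y z hl ⟨e, h1, h2⟩ ⟨e', h3, h4⟩
    have h5 := ((S y.1.1).tri (J y.1.1 (x.1.1 ⊓ y.1.1) e) y.2
      (J y.1.1 (y.1.1 ⊓ z.1.1) e')).trans (sup_le h2 h3)
    obtain ⟨h6, h7⟩ := down _ y.1.2.le _ _ l hl h5
    obtain ⟨g, hg1, hg2⟩ := (hJ _ y.1.2).interp _ _ inf_le_right inf_le_left e e' _ h7 h6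
    have hgx : (x.1.1 ⊓ y.1.1) ⊓ (y.1.1 ⊓ z.1.1) ≤ x.1.1 := inf_le_left.trans inf_le_left
    have hgz : (x.1.1 ⊓ y.1.1) ⊓ (y.1.1 ⊓ z.1.1) ≤ z.1.1 := inf_le_right.trans inf_le_right
    have hlx : lo x.1.1 ≤ l := hlo _ _ (by rw [hl]; exact x.1.2.le)
    have hlz : lo z.1.1 ≤ l := hlo _ _ (by rw [hl]; exact z.1.2.le)
    refine hRof x z _ hgx hgz g l ?_ ?_
    · refine ((S x.1.1).tri _ (J x.1.1 (x.1.1 ⊓ y.1.1) e) _).trans (sup_le h1 ?_)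
      rw [← (hJ _ x.1.2).comp _ _ inf_le_left inf_le_left, (hJ _ x.1.2).isom _ inf_le_left]
      refine sup_le ?_ hlx
      rw [← (hJ _ y.1.2).comp _ _ inf_le_left inf_le_right, (hJ _ y.1.2).isom _ inf_le_right] at hg1
      exact le_sup_left.trans (hg1.trans inf_le_left)
    · refine ((S z.1.1).tri _ (J z.1.1 (y.1.1 ⊓ z.1.1) e') _).trans (sup_le ?_ h4)
      rw [← (hJ _ z.1.2).comp _ _ inf_le_right inf_le_right, (hJ _ z.1.2).isom _ inf_le_right]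
      refine sup_le ?_ hlz
      rw [← (hJ _ y.1.2).comp _ _ inf_le_right inf_le_left, (hJ _ y.1.2).isom _ inf_le_left] at hg2
      exact le_sup_left.trans (hg2.trans inf_le_left)
  have hex : ∀ x y : A, ∃ D : L, f D = t ∧ R D x y ∧ ∀ l, f l = t → R l x y → D ≤ l := by
    intro x y
    have hne : {l : L | f l = t ∧ R l x y}.Nonempty := by
      obtain ⟨e⟩ := (S (x.1.1 ⊓ y.1.1)).ne
      refine ⟨(S x.1.1).d x.2 (J x.1.1 (x.1.1 ⊓ y.1.1) e) ⊔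
        (S y.1.1).d (J y.1.1 (x.1.1 ⊓ y.1.1) e) y.2 ⊔ lo t, ?_, e, ?_, ?_⟩
      · rw [map_sup, map_sup, (S _).fd, (S _).fd, hflo]
        exact sup_eq_right.2 (sup_le x.1.2.le y.1.2.le)
      · exact le_sup_left.trans le_sup_left
      · exact le_sup_right.trans le_sup_left
    obtain ⟨D, hD, hmin⟩ := (Set.toFinite {l : L | f l = t ∧ R l x y}).exists_minimal hne
    refine ⟨D, hD.1, hD.2, fun l hl hR => ?_⟩
    have h1 : D ⊓ l ∈ {l : L | f l = t ∧ R l x y} :=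
      ⟨by rw [map_inf, hD.1, hl, inf_idem], hRinf _ _ _ _ hD.1 hl hD.2 hR⟩
    exact (hmin h1 inf_le_left).trans inf_le_right
  choose δ hδf hδR hδle using hex
  have hiff : ∀ x y l, f l = t → (δ x y ≤ l ↔ R l x y) := fun x y l hl =>
    ⟨fun h => hRmono _ _ _ _ h (hδR x y), fun h => hδle x y l hl h⟩
  have hsymm : ∀ x y, δ x y = δ y x := fun x y =>
    le_antisymm (hδle _ _ _ (hδf _ _) (hRsymm _ _ _ (hδR y x)))
      (hδle _ _ _ (hδf _ _) (hRsymm _ _ _ (hδR x y)))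
  have htri : ∀ x y z, δ x z ≤ δ x y ⊔ δ y z := by
    intro x y z
    have hf : f (δ x y ⊔ δ y z) = t := by rw [map_sup, hδf, hδf, sup_idem]
    exact hδle _ _ _ hf (hRtrans _ _ _ _ hf (hRmono _ _ _ _ le_sup_left (hδR x y))
      (hRmono _ _ _ _ le_sup_right (hδR y z)))
  have hcomp0 : ∀ (q r : K) (hq : q < t) (hr : r < t), q ≤ r → ∀ a : (S q).X,
      δ ⟨⟨r, hr⟩, J r q a⟩ ⟨⟨q, hq⟩, a⟩ = lo t := by
    intro q r hq hr hqr a
    refine le_antisymm (hδle _ _ _ (hflo t) ?_) (hlo _ _ (hδf _ _).ge)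
    refine hRof ⟨⟨r, hr⟩, J r q a⟩ ⟨⟨q, hq⟩, a⟩ q hqr le_rfl a _ ?_ ?_
    · show (S r).d (J r q a) (J r q a) ≤ lo t
      rw [((S r).self _ _).2 rfl]
      exact hlo _ _ (by rw [hflo]; exact hr.le)
    · show (S q).d (J q q a) a ≤ lo t
      rw [(hJ q hq).refl, ((S q).self _ _).2 rfl]
      exact hlo _ _ (by rw [hflo]; exact hq.le)
  have hself : ∀ x, δ x x = lo t := by
    rintro ⟨⟨r, hr⟩, a⟩
    have := hcomp0 r r hr hr le_rfl a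
    rwa [(hJ r hr).refl] at this
  have hown : ∀ (r : K) (hr : r < t) (a a' : (S r).X),
      δ ⟨⟨r, hr⟩, a⟩ ⟨⟨r, hr⟩, a'⟩ = (S r).d a a' ⊔ lo t := by
    intro r hr a a'
    apply le_antisymm
    · refine hδle _ _ _ ?_ ?_
      · rw [map_sup, (S r).fd, hflo]
        exact sup_eq_right.2 hr.le
      · refine hRof ⟨⟨r, hr⟩, a⟩ ⟨⟨r, hr⟩, a'⟩ r le_rfl le_rfl a _ ?_ ?_
        · show (S r).d a (J r r a) ≤ _
          rw [(hJ r hr).refl, ((S r).self _ _).2 rfl]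
          exact (hlo _ _ (by rw [hflo]; exact hr.le)).trans le_sup_right
        · show (S r).d (J r r a) a' ≤ _
          rw [(hJ r hr).refl]
          exact le_sup_left
    · refine sup_le ?_ (hlo _ _ (hδf _ _).ge)
      obtain ⟨e, h1, h2⟩ := hδR ⟨⟨r, hr⟩, a⟩ ⟨⟨r, hr⟩, a'⟩
      exact ((S r).tri _ _ _).trans (sup_le h1 h2)
  obtain ⟨ι, hι, hgate, hextι⟩ := hU A le_rfl δ hδf hself hsymm htri
  have hcomp1 : ∀ (q r : K) (hq : q < t) (hr : r < t), q ≤ r → ∀ (a : (S q).X) (y : A),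
      δ ⟨⟨r, hr⟩, J r q a⟩ y = δ ⟨⟨q, hq⟩, a⟩ y := by
    intro q r hq hr hqr a y
    have h1 := hcomp0 q r hq hr hqr a
    apply le_antisymm
    · refine (htri _ ⟨⟨q, hq⟩, a⟩ _).trans (sup_le ?_ le_rfl)
      rw [h1]; exact hlo _ _ (hδf _ _).ge
    · refine (htri _ ⟨⟨r, hr⟩, J r q a⟩ _).trans (sup_le ?_ le_rfl)
      rw [hsymm, h1]; exact hlo _ _ (hδf _ _).ge
  -- a witness can be moved to the level of one of the two points
  have hW : ∀ (c x y : A) l l', f l = t → f l' = t → δ c x ≤ l → δ c y ≤ l' →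
      (∃ c' : (S x.1.1).X, δ ⟨x.1, c'⟩ x ≤ l ∧ δ ⟨x.1, c'⟩ y ≤ l') ∨
        ∃ c' : (S y.1.1).X, δ ⟨y.1, c'⟩ x ≤ l ∧ δ ⟨y.1, c'⟩ y ≤ l' := by
    rintro ⟨⟨ρ, hρ⟩, γ⟩ x y l l' hl hl' h1 h2
    obtain ⟨e1, h3, -⟩ := (hiff _ _ l hl).1 h1
    obtain ⟨e2, h4, -⟩ := (hiff _ _ l' hl').1 h2
    obtain ⟨a1, a2⟩ := down _ hρ.le _ _ l hl h3
    obtain ⟨a3, a4⟩ := down _ hρ.le _ _ l' hl' h4
    have hll : f (l ⊓ l') = t := by rw [map_inf, hl, hl', inf_idem]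
    have hle : (l ⊓ hi ρ) ⊓ (l' ⊓ hi ρ) ≤ l ⊓ l' := inf_le_inf inf_le_left inf_le_left
    rcases (hJ _ hρ).gate _ _ inf_le_left inf_le_left γ e1 e2 _ _ a2 a4 a1 a3 with
      ⟨c, hc'⟩ | ⟨c, hc'⟩
    · have h5 : δ ⟨x.1, J x.1.1 (ρ ⊓ x.1.1) c⟩ ⟨⟨ρ, hρ⟩, γ⟩ ≤ l ⊓ l' := by
        refine hδle _ _ _ hll (hRof ⟨x.1, J x.1.1 (ρ ⊓ x.1.1) c⟩ ⟨⟨ρ, hρ⟩, γ⟩ (ρ ⊓ x.1.1)
          inf_le_right inf_le_left c _ ?_ ?_)
        · show (S x.1.1).d _ _ ≤ _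
          rw [((S _).self _ _).2 rfl]
          exact hlo _ _ (by rw [hll]; exact x.1.2.le)
        · show (S ρ).d (J ρ (ρ ⊓ x.1.1) c) γ ≤ _
          rw [(S ρ).symm]
          exact hc'.trans hle
      exact Or.inl ⟨J x.1.1 (ρ ⊓ x.1.1) c,
        (htri _ _ _).trans (sup_le (h5.trans inf_le_left) h1),
        (htri _ _ _).trans (sup_le (h5.trans inf_le_right) h2)⟩
    · have h5 : δ ⟨y.1, J y.1.1 (ρ ⊓ y.1.1) c⟩ ⟨⟨ρ, hρ⟩, γ⟩ ≤ l ⊓ l' := by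
        refine hδle _ _ _ hll (hRof ⟨y.1, J y.1.1 (ρ ⊓ y.1.1) c⟩ ⟨⟨ρ, hρ⟩, γ⟩ (ρ ⊓ y.1.1)
          inf_le_right inf_le_left c _ ?_ ?_)
        · show (S y.1.1).d _ _ ≤ _
          rw [((S _).self _ _).2 rfl]
          exact hlo _ _ (by rw [hll]; exact y.1.2.le)
        · show (S ρ).d (J ρ (ρ ⊓ y.1.1) c) γ ≤ _
          rw [(S ρ).symm]
          exact hc'.trans hle
      exact Or.inr ⟨J y.1.1 (ρ ⊓ y.1.1) c,
        (htri _ _ _).trans (sup_le (h5.trans inf_le_left) h1),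
        (htri _ _ _).trans (sup_le (h5.trans inf_le_right) h2)⟩
  -- incidences with respect to meet primes
  have hPr : ∀ (x y : A) m m', MP f t m → MP f t m' → Cm (S t) m m' (ι x) (ι y) →
      (∃ c' : (S x.1.1).X, δ ⟨x.1, c'⟩ x ≤ m ∧ δ ⟨x.1, c'⟩ y ≤ m') ∨
        ∃ c' : (S y.1.1).X, δ ⟨y.1, c'⟩ x ≤ m ∧ δ ⟨y.1, c'⟩ y ≤ m' := by
    intro x y m m' hm hm' h
    obtain ⟨c, h1, h2⟩ := hgate x y m m' hm hm' h
    exact hW c x y m m' hm.1 hm'.1 (by rw [hsymm]; exact h1) h2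
  -- the points near a lower space
  have hcl : ∀ (y : A) (q : K) (hq : q < t), q ≤ y.1.1 → ∀ l, f l = t →
      (∀ m, MP f t m → l ≤ m → ∃ o : (S q).X, δ ⟨⟨q, hq⟩, o⟩ y ≤ m) →
        ∃ o : (S q).X, δ ⟨⟨q, hq⟩, o⟩ y ≤ l := by
    intro y q hq hqy l hl hm
    have hne : {z : L | f z = t ∧ ∃ o : (S q).X, δ ⟨⟨q, hq⟩, o⟩ y ≤ z}.Nonempty := by
      obtain ⟨o⟩ := (S q).ne
      exact ⟨_, hδf _ _, o, le_rfl⟩
    obtain ⟨z, ⟨hz1, o, hz2⟩, hmin⟩ := (Set.toFinite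
      {z : L | f z = t ∧ ∃ o : (S q).X, δ ⟨⟨q, hq⟩, o⟩ y ≤ z}).exists_minimal hne
    have hall : ∀ z', f z' = t → (∃ o : (S q).X, δ ⟨⟨q, hq⟩, o⟩ y ≤ z') → z ≤ z' := by
      rintro z' hz' ⟨o', ho'⟩
      have e1 : (S y.1.1).d y.2 (J y.1.1 q o) ≤ z := by
        have h3 := hcomp1 q y.1.1 hq y.1.2 hqy o y
        rw [← h3, hown y.1.1 y.1.2 (J y.1.1 q o) y.2, (S _).symm] at hz2
        exact le_sup_left.trans hz2
      have e2 : (S y.1.1).d y.2 (J y.1.1 q o') ≤ z' := by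
        have h3 := hcomp1 q y.1.1 hq y.1.2 hqy o' y
        rw [← h3, hown y.1.1 y.1.2 (J y.1.1 q o') y.2, (S _).symm] at ho'
        exact le_sup_left.trans ho'
      obtain ⟨a1, a2⟩ := down _ y.1.2.le _ _ z hz1 e1
      obtain ⟨a3, a4⟩ := down _ y.1.2.le _ _ z' hz' e2
      have hle : (z ⊓ hi y.1.1) ⊓ (z' ⊓ hi y.1.1) ≤ z ⊓ z' := inf_le_inf inf_le_left inf_le_left
      have hzz : f (z ⊓ z') = t := by rw [map_inf, hz1, hz', inf_idem]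
      obtain ⟨c, hc⟩ : ∃ c : (S q).X, (S y.1.1).d y.2 (J y.1.1 q c) ≤ z ⊓ z' := by
        rcases (hJ _ y.1.2).gate _ _ hqy hqy y.2 o o' _ _ a2 a4 a1 a3 with ⟨c, hc⟩ | ⟨c, hc⟩
        · exact ⟨c, hc.trans hle⟩
        · exact ⟨c, hc.trans hle⟩
      have h5 : z ⊓ z' ∈ {z : L | f z = t ∧ ∃ o : (S q).X, δ ⟨⟨q, hq⟩, o⟩ y ≤ z} := by
        refine ⟨hzz, c, ?_⟩
        rw [← hcomp1 q y.1.1 hq y.1.2 hqy c y, hown y.1.1 y.1.2 (J y.1.1 q c) y.2, (S _).symm]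
        exact sup_le hc (hlo _ _ hzz.ge)
      exact (hmin h5 inf_le_left).trans inf_le_right
    by_cases hzl : z ≤ l
    · exact ⟨o, hz2.trans hzl⟩
    · obtain ⟨m, hm1, hm2, hm3⟩ := sep hd hl hz1 hzl
      exact absurd (hall m hm1.1 (hm m hm1 hm2)) hm3
  -- one lower space
  have hC : ∀ (r : K) (hr : r < t) (a b : (S r).X) l l', f l = t → f l' = t →
      Cm (S t) l l' (ι ⟨⟨r, hr⟩, a⟩) (ι ⟨⟨r, hr⟩, b⟩) →
      ∃ c : (S r).X, δ ⟨⟨r, hr⟩, a⟩ ⟨⟨r, hr⟩, c⟩ ≤ l ∧ δ ⟨⟨r, hr⟩, c⟩ ⟨⟨r, hr⟩, b⟩ ≤ l' := by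
    rintro r hr a b l l' hl hl' ⟨z, hz1, hz2⟩
    have hlr : ∀ l, f l = t → f (l ⊓ hi r) = r := by
      intro l hl
      rw [map_inf, hl, hfhi, inf_eq_right.2 hr.le]
    have hle : ∀ l, f l = t → ∀ a b : (S r).X, δ ⟨⟨r, hr⟩, a⟩ ⟨⟨r, hr⟩, b⟩ ≤ l →
        (S r).d a b ≤ l ⊓ hi r := by
      intro l hl a b h
      rw [hown r hr] at h
      exact (down r hr.le a b l hl (le_sup_left.trans h)).1
    have h1 := hF r hr a b l l' hl hl' (by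
      intro m m' hm1 hm1' hm2 hm2'
      rcases hPr ⟨⟨r, hr⟩, a⟩ ⟨⟨r, hr⟩, b⟩ m m' hm1 hm1'
        ⟨z, hz1.trans hm2, hz2.trans hm2'⟩ with ⟨c, hc1, hc2⟩ | ⟨c, hc1, hc2⟩
      · refine ⟨c, ?_, ?_⟩
        · rw [(S r).symm]
          exact hle m hm1.1 c a hc1
        · exact hle m' hm1'.1 c b hc2
      · refine ⟨c, ?_, ?_⟩
        · rw [(S r).symm]
          exact hle m hm1.1 c a hc1
        · exact hle m' hm1'.1 c b hc2)
    obtain ⟨c, hc1, hc2⟩ := h1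
    refine ⟨c, ?_, ?_⟩
    · rw [hown r hr]
      exact sup_le (hc1.trans inf_le_left) (hlo _ _ hl.ge)
    · rw [hown r hr]
      exact sup_le (hc2.trans inf_le_left) (hlo _ _ hl'.ge)
  -- two lower spaces
  have hgate2 : ∀ (x y : A) l l', f l = t → f l' = t → Cm (S t) l l' (ι x) (ι y) →
      (∃ c : (S x.1.1).X, δ x ⟨x.1, c⟩ ≤ l ∧ δ ⟨x.1, c⟩ y ≤ l') ∨
        ∃ c : (S y.1.1).X, δ x ⟨y.1, c⟩ ≤ l ∧ δ ⟨y.1, c⟩ y ≤ l' := by
    rintro ⟨⟨r, hr⟩, a⟩ ⟨⟨r', hr'⟩, a'⟩ l l' hl hl' ⟨z, hz1, hz2⟩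
    have hq : r ⊓ r' < t := lt_of_le_of_lt inf_le_left hr
    by_cases hcase : ∀ m', MP f t m' → l' ≤ m' →
        ∃ o : (S (r ⊓ r')).X, δ ⟨⟨r ⊓ r', hq⟩, o⟩ ⟨⟨r', hr'⟩, a'⟩ ≤ m'
    · obtain ⟨o, ho⟩ := hcl ⟨⟨r', hr'⟩, a'⟩ (r ⊓ r') hq inf_le_right l' hl' hcase
      have ho' : δ ⟨⟨r, hr⟩, J r (r ⊓ r') o⟩ ⟨⟨r', hr'⟩, a'⟩ ≤ l' := by
        rw [hcomp1 (r ⊓ r') r hq hr inf_le_left o]
        exact ho
      obtain ⟨c, hc1, hc2⟩ := hC r hr a (J r (r ⊓ r') o) l l' hl hl' ⟨z, hz1, by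
        refine ((S t).tri z (ι ⟨⟨r', hr'⟩, a'⟩) _).trans (sup_le hz2 ?_)
        rw [hι, hsymm]
        exact ho'⟩
      exact Or.inl ⟨c, hc1, (htri _ _ _).trans (sup_le hc2 ho')⟩
    · push Not at hcase
      obtain ⟨m', hm', hlm', hno⟩ := hcase
      obtain ⟨o, ho⟩ := hcl ⟨⟨r, hr⟩, a⟩ (r ⊓ r') hq inf_le_left l hl (by
        intro m hm hlm
        rcases hPr ⟨⟨r, hr⟩, a⟩ ⟨⟨r', hr'⟩, a'⟩ m m' hm hm' ⟨z, hz1.trans hlm, hz2.trans hlm'⟩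
          with ⟨c, hc1, hc2⟩ | ⟨c, hc1, hc2⟩
        · exfalso
          obtain ⟨e, he1, he2⟩ := (hiff _ _ m' hm'.1).1 hc2
          refine hno e ?_
          rw [← hcomp1 (r ⊓ r') r' hq hr' inf_le_right e, hown r' hr']
          exact sup_le he2 (hlo _ _ hm'.1.ge)
        · obtain ⟨e, he1, he2⟩ := (hiff _ _ m hm.1).1 (by rw [hsymm]; exact hc1)
          refine ⟨e, ?_⟩
          rw [← hcomp1 (r ⊓ r') r hq hr inf_le_left e, hown r hr, (S r).symm]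
          exact sup_le he1 (hlo _ _ hm.1.ge))
      have ho' : δ ⟨⟨r', hr'⟩, J r' (r ⊓ r') o⟩ ⟨⟨r, hr⟩, a⟩ ≤ l := by
        rw [hcomp1 (r ⊓ r') r' hq hr' inf_le_right o]
        exact ho
      obtain ⟨c, hc1, hc2⟩ := hC r' hr' (J r' (r ⊓ r') o) a' l l' hl hl' ⟨z, by
        refine ((S t).tri _ (ι ⟨⟨r, hr⟩, a⟩) _).trans (sup_le ?_ hz1)
        rw [hι]
        exact ho', hz2⟩
      refine Or.inr ⟨c, (htri _ ⟨⟨r', hr'⟩, J r' (r ⊓ r') o⟩ _).trans (sup_le ?_ hc1), hc2⟩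
      rw [hsymm]
      exact ho'
  have hne : Nonempty (S t).X := (S t).ne
  let new : ∀ r, (S r).X → (S t).X := fun r a =>
    if h : r < t then ι ⟨⟨r, h⟩, a⟩ else if h' : r = t then h' ▸ a else Classical.arbitrary _
  have new_lt : ∀ r (h : r < t) a, new r a = ι ⟨⟨r, h⟩, a⟩ := fun r h a => dif_pos h
  have new_self : ∀ a, new t a = a := by
    intro a
    show (if h : t < t then ι ⟨⟨t, h⟩, a⟩ else if h' : t = t then h' ▸ a
      else Classical.arbitrary _) = a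
    rw [dif_neg (lt_irrefl t), dif_pos rfl]
  let J' : ∀ t r, (S r).X → (S t).X := Function.update J t new
  have hJt : J' t = new := Function.update_self _ _ _
  have hJr : ∀ r, r ≠ t → J' r = J r := fun r h => Function.update_of_ne h _ _
  have hcomp : ∀ q r, q ≤ r → r ≤ t → ∀ a, J' t r (J' r q a) = J' t q a := by
    intro q r hqr hrt a
    rcases eq_or_lt_of_le hrt with rfl | hr
    · rw [hJt, new_self]
    · have hq : q < t := hqr.trans_lt hr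
      rw [hJt, hJr r hr.ne, new_lt r hr, new_lt q hq]
      apply ((S t).self _ _).1
      rw [hι]
      exact hcomp0 q r hq hr hqr a
  have hisom : ∀ r, r ≤ t → ∀ a a', (S t).d (J' t r a) (J' t r a') = (S r).d a a' ⊔ lo t := by
    intro r hrt a a'
    rcases eq_or_lt_of_le hrt with rfl | hr
    · rw [hJt, new_self, new_self]
      exact (sup_eq_left.2 (hlo _ _ ((S _).fd _ _).ge)).symm
    · rw [hJt, new_lt r hr, new_lt r hr, hι]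
      exact hown r hr a a'
  refine ⟨J', hJr, ⟨fun a => by rw [hJt]; exact new_self a, hcomp, hisom, ?_, ?_, ?_⟩⟩
  · -- interpolation
    intro r r' hr hr' a a' l hl h
    rcases eq_or_lt_of_le hr with hreq | hrlt
    · subst hreq
      have hle : r' ≤ r ⊓ r' := le_inf hr' le_rfl
      refine ⟨J' (r ⊓ r') r' a', ?_, ?_⟩
      · rw [hcomp _ _ hle inf_le_left]; exact h
      · rw [hcomp _ _ hle inf_le_left, ((S _).self _ _).2 rfl]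
        exact hlo _ _ hl.ge
    rcases eq_or_lt_of_le hr' with hreq | hrlt'
    · subst hreq
      have hle : r ≤ r ⊓ r' := le_inf le_rfl hr
      refine ⟨J' (r ⊓ r') r a, ?_, ?_⟩
      · rw [hcomp _ _ hle inf_le_right, ((S _).self _ _).2 rfl]
        exact hlo _ _ hl.ge
      · rw [hcomp _ _ hle inf_le_right]; exact h
    · rw [hJt, new_lt r hrlt, new_lt r' hrlt', hι] at h
      obtain ⟨e, h1, h2⟩ := (hiff _ _ l hl).1 h
      have hlt : lo t ≤ l := hlo _ _ hl.ge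
      refine ⟨e, ?_, ?_⟩
      · rw [← hcomp _ _ inf_le_left hr, hisom r hr, hJr r hrlt.ne]
        exact sup_le h1 hlt
      · rw [← hcomp _ _ inf_le_right hr', hisom r' hr', hJr r' hrlt'.ne]
        exact sup_le h2 hlt
  · -- gates
    intro r r' hr hr' x a a' l l' hl hl' h h'
    have hll : f (l ⊓ l') = t := by rw [map_inf, hl, hl', inf_idem]
    rcases eq_or_lt_of_le hr with hreq | hrlt
    · subst hreq
      refine Or.inl ⟨x, ?_⟩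
      rw [hJt, new_self, ((S _).self _ _).2 rfl]
      exact hlo _ _ hll.ge
    rcases eq_or_lt_of_le hr' with hreq | hrlt'
    · subst hreq
      refine Or.inr ⟨x, ?_⟩
      rw [hJt, new_self, ((S _).self _ _).2 rfl]
      exact hlo _ _ hll.ge
    rw [hJt, new_lt r hrlt] at h
    rw [hJt, new_lt r' hrlt'] at h'
    have key : (∃ c : (S r).X, δ ⟨⟨r, hrlt⟩, a⟩ ⟨⟨r, hrlt⟩, c⟩ ≤ l ∧
          δ ⟨⟨r, hrlt⟩, c⟩ ⟨⟨r', hrlt'⟩, a'⟩ ≤ l') ∨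
        ∃ c : (S r').X, δ ⟨⟨r, hrlt⟩, a⟩ ⟨⟨r', hrlt'⟩, c⟩ ≤ l ∧
          δ ⟨⟨r', hrlt'⟩, c⟩ ⟨⟨r', hrlt'⟩, a'⟩ ≤ l' :=
      hgate2 ⟨⟨r, hrlt⟩, a⟩ ⟨⟨r', hrlt'⟩, a'⟩ l l' hl hl' ⟨x, by rw [(S t).symm]; exact h, h'⟩
    rcases key with ⟨c, hc1, hc2⟩ | ⟨c, hc1, hc2⟩
    · refine Or.inl ⟨c, ?_⟩
      rw [hJt, new_lt r hrlt]
      refine le_inf (((S t).tri _ (ι ⟨⟨r, hrlt⟩, a⟩) _).trans (sup_le h ?_))
        (((S t).tri _ (ι ⟨⟨r', hrlt'⟩, a'⟩) _).trans (sup_le h' ?_))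
      · rw [hι]; exact hc1
      · rw [hι, hsymm]; exact hc2
    · refine Or.inr ⟨c, ?_⟩
      rw [hJt, new_lt r' hrlt']
      refine le_inf (((S t).tri _ (ι ⟨⟨r, hrlt⟩, a⟩) _).trans (sup_le h ?_))
        (((S t).tri _ (ι ⟨⟨r', hrlt'⟩, a'⟩) _).trans (sup_le h' ?_))
      · rw [hι]; exact hc1
      · rw [hι, hsymm]; exact hc2
  · -- extension
    intro s g hg
    have hg' : ∀ r, s ≤ r → r < t → g r ∈ B r ∧
        ∀ q, s ≤ q → q ≤ r → ∀ a, g r (J r q a) = J r q (g q a) := by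
      intro r hr1 hr2
      refine ⟨(hg r hr1 hr2).1, fun q hq1 hq2 a => ?_⟩
      have h1 := (hg r hr1 hr2).2 q hq1 hq2 a
      rwa [hJr r hr2.ne] at h1
    let A' : Set A := {x | s ≤ x.1.1}
    let σ : A → A := fun x => ⟨x.1, g x.1.1 x.2⟩
    have hRσ : ∀ l (x y : A), s ≤ x.1.1 → s ≤ y.1.1 → (R l (σ x) (σ y) ↔ R l x y) := by
      intro l x y hx hy
      have hm : s ≤ x.1.1 ⊓ y.1.1 := le_inf hx hy
      have e1 : ∀ e, (S x.1.1).d (g x.1.1 x.2) (J x.1.1 (x.1.1 ⊓ y.1.1) (g _ e)) =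
          (S x.1.1).d x.2 (J x.1.1 (x.1.1 ⊓ y.1.1) e) := by
        intro e
        rw [← (hg' _ hx x.1.2).2 _ hm inf_le_left, hB _ _ (hg' _ hx x.1.2).1]
      have e2 : ∀ e, (S y.1.1).d (J y.1.1 (x.1.1 ⊓ y.1.1) (g _ e)) (g y.1.1 y.2) =
          (S y.1.1).d (J y.1.1 (x.1.1 ⊓ y.1.1) e) y.2 := by
        intro e
        rw [← (hg' _ hy y.1.2).2 _ hm inf_le_right, hB _ _ (hg' _ hy y.1.2).1]
      constructor
      · rintro ⟨e, h1, h2⟩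
        obtain ⟨e', rfl⟩ := (g (x.1.1 ⊓ y.1.1)).surjective e
        exact ⟨e', (e1 e').symm.le.trans h1, (e2 e').symm.le.trans h2⟩
      · rintro ⟨e, h1, h2⟩
        exact ⟨g _ e, (e1 e).le.trans h1, (e2 e).le.trans h2⟩
    have hδσ : ∀ x y : A, s ≤ x.1.1 → s ≤ y.1.1 → δ (σ x) (σ y) = δ x y := by
      intro x y hx hy
      apply le_antisymm
      · exact hδle _ _ _ (hδf _ _) ((hRσ _ _ _ hx hy).2 (hδR x y))
      · exact hδle _ _ _ (hδf _ _) ((hRσ _ _ _ hx hy).1 (hδR (σ x) (σ y)))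
    -- an incidence between points above `s` is witnessed above `s`
    have hinc : ∀ (c x y : A) l l', s ≤ x.1.1 → s ≤ y.1.1 → f l = t → f l' = t → δ c x ≤ l →
        δ c y ≤ l' → ∃ c' : A, s ≤ c'.1.1 ∧ δ c' x ≤ l ∧ δ c' y ≤ l' := by
      intro c x y l l' hx hy hl hl' h1 h2
      rcases hW c x y l l' hl hl' h1 h2 with ⟨c', h3, h4⟩ | ⟨c', h3, h4⟩
      · exact ⟨⟨x.1, c'⟩, hx, h3, h4⟩
      · exact ⟨⟨y.1, c'⟩, hy, h3, h4⟩
    obtain ⟨γ, hγB, hγ⟩ := hextι A' σ (fun x hx y hy => hδσ x y hx hy) (by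
      intro x hx y hy l l' hl hl'
      constructor
      · rintro ⟨c, h1, h2⟩
        obtain ⟨c', h3, h4, h5⟩ := hinc c x y l l' hx hy hl hl' h1 h2
        exact ⟨σ c', (hδσ _ _ h3 hx).le.trans h4, (hδσ _ _ h3 hy).le.trans h5⟩
      · rintro ⟨c, h1, h2⟩
        obtain ⟨c', h3, h4, h5⟩ := hinc c (σ x) (σ y) l l' hx hy hl hl' h1 h2
        obtain ⟨b, hb⟩ := (g c'.1.1).surjective c'.2
        have h6 : σ ⟨c'.1, b⟩ = c' := Sigma.ext rfl (heq_of_eq hb)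
        refine ⟨⟨c'.1, b⟩, ?_, ?_⟩
        · rw [← hδσ ⟨c'.1, b⟩ x h3 hx, h6]; exact h4
        · rw [← hδσ ⟨c'.1, b⟩ y h3 hy, h6]; exact h5)
    refine ⟨γ, hγB, fun r hsr hrt a => ?_⟩
    rw [hJt, new_lt r hrt, new_lt r hrt]
    exact hγ ⟨⟨r, hrt⟩, a⟩ hsr

end Vale.Agent.P183.H330M
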