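import Vale.Agent.P183.H330M.Final
import Mathlib.Order.Hom.Lattice

/-!
Consequences of the extension theorem for mixed fibres.
-/

namespace Vale.Agent.P183.H330M

open Vale.Agent.P183 Vale.Agent.P183.H330 Vale.Agent.P183.H330D

variable {L K : Type} [Lattice L] [Lattice K]

/-- The dual of the extension theorem. -/
theorem ext_mixed_dual [Finite L] (f : LatticeHom L K) (hf : Function.Surjective f)
    (hK : Representable K) (h : MixedFibres (LatticeHom.dual f)) : Representable L := by
  have hLf : Finite Lᵒᵈ := inferInstanceAs (Finite L)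
  have h1 : Representable Lᵒᵈ := ext_mixed (LatticeHom.dual f) (by
    intro k
    obtain ⟨l, hl⟩ := hf (OrderDual.ofDual k)
    exact ⟨OrderDual.toDual l, congrArg OrderDual.toDual hl⟩) hK.dual h
  exact h1.dual

/-- The least fibre is a group interval, the other fibres are distributive and have narrow traces
on the least fibre. -/
theorem mixed_of_least {f : LatticeHom L K} (b0 : K) (hb0 : ∀ k, b0 ≤ k)
    (hg : IsGroupInterval {l : L // f l = b0}) (hd : ∀ t, t ≠ b0 → DistribOver f t)
    (hn : NarrowTraces f b0) : MixedFibres f := by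
  intro t
  by_cases ht : t = b0
  · subst ht
    exact Or.inr ⟨hg, fun x y hx _ => absurd (hb0 (f x)) (not_le_of_gt hx), hn⟩
  · exact Or.inl (hd t ht)

theorem mixed_toIm {f : LatticeHom L K} (h : MixedFibres f) : MixedFibres (toIm f) := by
  have e1 : ∀ (x : L) (t : imS f), toIm f x = t ↔ f x = t.1 :=
    fun x t => ⟨fun h => congrArg Subtype.val h, fun h => Subtype.ext h⟩
  intro t
  rcases h t.1 with h1 | ⟨⟨G, hG, hGf, H, ⟨θ⟩⟩, h2, h3⟩
  · exact Or.inl fun x y z hx hy hz => h1 x y z ((e1 x t).1 hx) ((e1 y t).1 hy) ((e1 z t).1 hz)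
  · refine Or.inr ⟨⟨G, hG, hGf, H, ⟨?_⟩⟩, ?_, ?_⟩
    · let e : {l : L // toIm f l = t} ≃o {l : L // f l = t.1} :=
        { toFun := fun l => ⟨l.1, (e1 _ _).1 l.2⟩
          invFun := fun l => ⟨l.1, (e1 _ _).2 l.2⟩
          left_inv := fun _ => rfl
          right_inv := fun _ => rfl
          map_rel_iff' := Iff.rfl }
      exact e.trans θ
    · intro x y hx hy
      exact h2 x y hx ((e1 y t).1 hy)
    · intro h h4 h5 x y z hx hxy hxz
      exact h3 h ((e1 h t).1 h4) (fun l hl => h5 l ((e1 l t).2 hl)) x y z hx
        (congrArg Subtype.val hxy) (congrArg Subtype.val hxz)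

/-- `L` cannot be reduced: it is subdirectly irreducible, and no homomorphism from `L` which is not
injective has mixed fibres, neither for the order of `L` nor for the dual order. -/
def Irreducible (L : Type) [Lattice L] : Prop :=
  SubdirectlyIrreducible L ∧ ∀ (K : Type) (_ : Lattice K) (f : LatticeHom L K),
    ¬ Function.Injective f → ¬ MixedFibres f ∧ ¬ MixedFibres (LatticeHom.dual f)

theorem mixed_dual_toIm {f : LatticeHom L K} (h : MixedFibres (LatticeHom.dual f)) :
    MixedFibres (LatticeHom.dual (toIm f)) := by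
  have e1 : ∀ (x : Lᵒᵈ) (t : (imS f)ᵒᵈ), LatticeHom.dual (toIm f) x = t ↔
      LatticeHom.dual f x = OrderDual.toDual (OrderDual.ofDual t).1 :=
    fun x t => ⟨fun h => by
        subst h
        rfl,
      fun h => Subtype.ext h⟩
  intro t
  rcases h (OrderDual.toDual (OrderDual.ofDual t).1) with h1 | ⟨⟨G, hG, hGf, H, ⟨θ⟩⟩, h2, h3⟩
  · exact Or.inl fun x y z hx hy hz => h1 x y z ((e1 x t).1 hx) ((e1 y t).1 hy) ((e1 z t).1 hz)
  · refine Or.inr ⟨⟨G, hG, hGf, H, ⟨?_⟩⟩, ?_, ?_⟩
    · let e : {l : Lᵒᵈ // LatticeHom.dual (toIm f) l = t} ≃o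
          {l : Lᵒᵈ // LatticeHom.dual f l = OrderDual.toDual (OrderDual.ofDual t).1} :=
        { toFun := fun l => ⟨l.1, (e1 _ _).1 l.2⟩
          invFun := fun l => ⟨l.1, (e1 _ _).2 l.2⟩
          left_inv := fun _ => rfl
          right_inv := fun _ => rfl
          map_rel_iff' := Iff.rfl }
      exact e.trans θ
    · intro x y hx hy
      exact h2 x y hx ((e1 y t).1 hy)
    · intro h h4 h5 x y z hx hxy hxz
      exact h3 h ((e1 h t).1 h4) (fun l hl => h5 l ((e1 l t).2 hl)) x y z hx
        (congrArg Subtype.val hxy) (congrArg Subtype.val hxz)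

/-- **Reduction of the problem.** -/
theorem reduction :
    (∀ (L : Type) [Lattice L] [Finite L] [Nonempty L], Representable L) ↔
      ∀ (L : Type) [Lattice L] [Finite L] [Nonempty L], Irreducible L → Representable L := by
  constructor
  · intro h L _ _ _ _
    exact h L
  intro H
  have key : ∀ n, ∀ (L : Type) [Lattice L] [Finite L] [Nonempty L], Nat.card L = n →
      Representable L := by
    intro n
    induction n using Nat.strong_induction_on with
    | _ n ih =>
      intro L _ _ _ hn
      have him : ∀ (K : Type) (_ : Lattice K) (f : LatticeHom L K), ¬ Function.Injective f →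
          Representable (imS f) := by
        intro K _ f hf
        have hfin : Finite (imS f) := Finite.of_surjective _ (toIm_surj f)
        have hnon : Nonempty (imS f) := ⟨toIm f (Classical.arbitrary L)⟩
        exact ih _ (by rw [← hn]; exact card_im_lt f hf) (imS f) rfl
      by_cases h1 : SubdirectlyIrreducible L
      · by_cases h2 : ∀ (K : Type) (_ : Lattice K) (f : LatticeHom L K),
          ¬ Function.Injective f → ¬ MixedFibres f ∧ ¬ MixedFibres (LatticeHom.dual f)
        · exact H L ⟨h1, h2⟩
        · push Not at h2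
          obtain ⟨K, _, f, hf, hd⟩ := h2
          by_cases hm : MixedFibres f
          · exact ext_mixed (toIm f) (toIm_surj f) (him K _ f hf) (mixed_toIm hm)
          · exact ext_mixed_dual (toIm f) (toIm_surj f) (him K _ f hf) (mixed_dual_toIm (hd hm))
      · apply representable_of_separated
        intro a b hab
        have h3 : ∃ (K : Type) (_ : Lattice K) (f : LatticeHom L K),
            ¬ Function.Injective f ∧ f a ≠ f b := by
          by_contra hc
          push Not at hc
          exact h1 ⟨a, b, hab, hc⟩
        obtain ⟨K, _, f, hf, hne⟩ := h3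
        refine ⟨imS f, inferInstance, toIm f, toIm_surj f, him K _ f hf, ?_⟩
        intro h
        exact hne (congrArg Subtype.val h)
  intro L _ _ _
  exact key _ L rfl

end Vale.Agent.P183.H330M
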